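import Mathlib

/-!
# Algebraic core for the Markov cotype two of `ℓ₁`

All sums are finite here.  `A` is a reversible stochastic matrix with respect to `w`, `B` and `C`
are stochastic, with `B - A B = (1/t) (A - C)`.
-/

set_option autoImplicit false

namespace Crest.Agent.Lib.Cotype

open Finset

variable {n : ℕ}

/-- Jensen's inequality for a finite probability vector. -/
lemma jensen (a c : Fin n → ℝ) (ha : ∀ i, 0 ≤ a i) (h1 : ∑ i, a i = 1) :
    (∑ i, a i * c i) ^ 2 ≤ ∑ i, a i * c i ^ 2 := by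
  set m := ∑ i, a i * c i with hm
  have h0 : 0 ≤ ∑ i, a i * (c i - m) ^ 2 :=
    Finset.sum_nonneg fun i _ => mul_nonneg (ha i) (sq_nonneg _)
  have e : ∑ i, a i * (c i - m) ^ 2
      = ∑ i, a i * c i ^ 2 - 2 * m * (∑ i, a i * c i) + m ^ 2 * ∑ i, a i := by
    calc ∑ i, a i * (c i - m) ^ 2
        = ∑ i, (a i * c i ^ 2 - 2 * m * (a i * c i) + m ^ 2 * a i) :=
          Finset.sum_congr rfl fun i _ => by ring
      _ = _ := by
          rw [Finset.sum_add_distrib, Finset.sum_sub_distrib, ← Finset.mul_sum, ← Finset.mul_sum]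
  rw [e, ← hm, h1] at h0
  nlinarith

/-- Signed Jensen. -/
lemma jensen' (a b c : Fin n → ℝ) (ha : ∀ i, 0 ≤ a i) (h1 : ∑ i, a i = 1)
    (hb : ∀ i, |b i| ≤ a i) :
    (∑ i, b i * c i) ^ 2 ≤ ∑ i, a i * c i ^ 2 := by
  have h2 : |∑ i, b i * c i| ≤ ∑ i, a i * |c i| := by
    refine (Finset.abs_sum_le_sum_abs _ _).trans (Finset.sum_le_sum ?_)
    intro i _
    rw [abs_mul]
    exact mul_le_mul_of_nonneg_right (hb i) (abs_nonneg _)
  have h3 := jensen a (fun i => |c i|) ha h1
  simp only [sq_abs] at h3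
  calc (∑ i, b i * c i) ^ 2 = |∑ i, b i * c i| ^ 2 := (sq_abs _).symm
    _ ≤ (∑ i, a i * |c i|) ^ 2 := by
        exact pow_le_pow_left₀ (abs_nonneg _) h2 2
    _ ≤ _ := h3

/-- Nonnegative, stochastic. -/
structure PS (P : Matrix (Fin n) (Fin n) ℝ) : Prop where
  nonneg : ∀ i j, 0 ≤ P i j
  stoch : ∀ i, ∑ j, P i j = 1

section Core

variable (w : Fin n → ℝ) (d : Fin n → Fin n → ℝ)

/-- Weighted second moment. -/
noncomputable def mom (P : Matrix (Fin n) (Fin n) ℝ) : ℝ :=
  ∑ i, ∑ j, w i * P i j * d i j ^ 2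

/-- Expected distance. -/
noncomputable def Ex (P : Matrix (Fin n) (Fin n) ℝ) (i m' : Fin n) : ℝ :=
  ∑ m, P i m * d m m'

/-- Mixed moment. -/
noncomputable def Qq (P R : Matrix (Fin n) (Fin n) ℝ) : ℝ :=
  ∑ i, ∑ m', w i * P i m' * Ex d R i m' ^ 2

/-- The pair functional of `d`, `B`. -/
noncomputable def DD (B : Matrix (Fin n) (Fin n) ℝ) (i j : Fin n) : ℝ :=
  ∑ m, ∑ m', B i m * B j m' * d m m'

/-- The self-energy. -/
noncomputable def TT (B : Matrix (Fin n) (Fin n) ℝ) (i : Fin n) : ℝ := DD d B i i / 2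

/-- The interaction energy. -/
noncomputable def EE (B : Matrix (Fin n) (Fin n) ℝ) (i j : Fin n) : ℝ :=
  DD d B i j - TT d B i - TT d B j

variable {w d}

variable (hw : ∀ i, 0 ≤ w i)
  (hd0 : ∀ a b, 0 ≤ d a b) (hds : ∀ a b, d a b = d b a) (hdt : ∀ a b c, d a c ≤ d a b + d b c)

include hw hd0 hds hdt in
/-- The basic moment bound. -/
lemma Qq_le {P R : Matrix (Fin n) (Fin n) ℝ} (hP : PS P) (hR : PS R) :
    Qq w d P R ≤ 2 * mom w d P + 2 * mom w d R := by
  have h1 : ∀ i m', Ex d R i m' ^ 2 ≤ 2 * (∑ m, R i m * d i m ^ 2) + 2 * d i m' ^ 2 := by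
    intro i m'
    have h2 := jensen (R i) (fun m => d m m') (hR.nonneg i) (hR.stoch i)
    refine h2.trans ?_
    have h3 : ∀ m, R i m * d m m' ^ 2 ≤ R i m * (2 * d i m ^ 2 + 2 * d i m' ^ 2) := by
      intro m
      apply mul_le_mul_of_nonneg_left _ (hR.nonneg i m)
      have h4 : d m m' ≤ d i m + d i m' := by
        have := hdt m i m'
        rwa [hds m i] at this
      have h5 := hd0 m m'
      nlinarith [sq_nonneg (d i m - d i m'), hd0 i m, hd0 i m']
    refine (Finset.sum_le_sum fun m _ => h3 m).trans (le_of_eq ?_)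
    have : ∀ m, R i m * (2 * d i m ^ 2 + 2 * d i m' ^ 2)
        = 2 * (R i m * d i m ^ 2) + R i m * (2 * d i m' ^ 2) := fun m => by ring
    simp_rw [this]
    rw [Finset.sum_add_distrib, ← Finset.mul_sum, ← Finset.sum_mul, hR.stoch i, one_mul]
  unfold Qq
  calc ∑ i, ∑ m', w i * P i m' * Ex d R i m' ^ 2
      ≤ ∑ i, ∑ m', w i * P i m' * (2 * (∑ m, R i m * d i m ^ 2) + 2 * d i m' ^ 2) := by
        apply Finset.sum_le_sum
        intro i _
        apply Finset.sum_le_sum
        intro m' _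
        exact mul_le_mul_of_nonneg_left (h1 i m') (mul_nonneg (hw i) (hP.nonneg i m'))
    _ = 2 * mom w d P + 2 * mom w d R := by
        unfold mom
        rw [Finset.mul_sum, Finset.mul_sum, ← Finset.sum_add_distrib]
        apply Finset.sum_congr rfl
        intro i _
        have : ∀ m', w i * P i m' * (2 * (∑ m, R i m * d i m ^ 2) + 2 * d i m' ^ 2)
            = P i m' * (2 * ∑ m, w i * R i m * d i m ^ 2) + 2 * (w i * P i m' * d i m' ^ 2) := by
          intro m'
          have : ∑ m, w i * R i m * d i m ^ 2 = w i * ∑ m, R i m * d i m ^ 2 := by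
            rw [Finset.mul_sum]
            apply Finset.sum_congr rfl
            intro m _
            ring
          rw [this]
          ring
        simp_rw [this]
        rw [Finset.sum_add_distrib, ← Finset.sum_mul, hP.stoch i, one_mul, ← Finset.mul_sum]
        ring

lemma mom_nonneg (hw : ∀ i, 0 ≤ w i) {P : Matrix (Fin n) (Fin n) ℝ} (hP : PS P) :
    0 ≤ mom w d P :=
  Finset.sum_nonneg fun i _ => Finset.sum_nonneg fun j _ =>
    mul_nonneg (mul_nonneg (hw i) (hP.nonneg i j)) (sq_nonneg _)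

lemma Ex_nonneg (hd0 : ∀ a b, 0 ≤ d a b) {P : Matrix (Fin n) (Fin n) ℝ} (hP : PS P) (i m' : Fin n) :
    0 ≤ Ex d P i m' :=
  Finset.sum_nonneg fun m _ => mul_nonneg (hP.nonneg i m) (hd0 m m')

lemma DD_eq_Ex (B : Matrix (Fin n) (Fin n) ℝ) (i j : Fin n) :
    DD d B i j = ∑ m', B j m' * Ex d B i m' := by
  unfold DD Ex
  rw [Finset.sum_comm]
  apply Finset.sum_congr rfl
  intro m' _
  rw [Finset.mul_sum]
  apply Finset.sum_congr rfl
  intro m _
  ring

lemma DD_symm (hds : ∀ a b, d a b = d b a) (B : Matrix (Fin n) (Fin n) ℝ) (i j : Fin n) :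
    DD d B i j = DD d B j i := by
  unfold DD
  rw [Finset.sum_comm]
  apply Finset.sum_congr rfl
  intro m _
  apply Finset.sum_congr rfl
  intro m' _
  rw [hds m' m]
  ring

lemma EE_symm (hds : ∀ a b, d a b = d b a) (B : Matrix (Fin n) (Fin n) ℝ) (i j : Fin n) :
    EE d B i j = EE d B j i := by
  unfold EE
  rw [DD_symm hds B i j]
  ring

lemma TT_nonneg (hd0 : ∀ a b, 0 ≤ d a b) {B : Matrix (Fin n) (Fin n) ℝ} (hB : PS B) (i : Fin n) :
    0 ≤ TT d B i := by
  unfold TT DD
  apply div_nonneg _ (by norm_num)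
  exact Finset.sum_nonneg fun m _ => Finset.sum_nonneg fun m' _ =>
    mul_nonneg (mul_nonneg (hB.nonneg i m) (hB.nonneg i m')) (hd0 m m')

/-- The auxiliary average of squared differences. -/
noncomputable def HH (d : Fin n → Fin n → ℝ) (B : Matrix (Fin n) (Fin n) ℝ) (i j : Fin n) : ℝ :=
  ∑ m', (1 / 2 * (B i m' + B j m')) * (Ex d B i m' - Ex d B j m') ^ 2

include hds in
lemma TT_sub_sq {B : Matrix (Fin n) (Fin n) ℝ} (hB : PS B) (i j : Fin n) :
    (TT d B i - TT d B j) ^ 2 ≤ HH d B i j := by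
  have e : TT d B i - TT d B j
      = ∑ m', (1 / 2 * (B i m' + B j m')) * (Ex d B i m' - Ex d B j m') := by
    unfold TT
    have h1 := DD_eq_Ex (d := d) B i i
    have h2 := DD_eq_Ex (d := d) B j j
    have h3 := DD_eq_Ex (d := d) B i j
    have h4 := DD_eq_Ex (d := d) B j i
    have h5 := DD_symm hds B i j
    have e2 : ∑ m', (1 / 2 * (B i m' + B j m')) * (Ex d B i m' - Ex d B j m')
        = 1 / 2 * (∑ m', B i m' * Ex d B i m' - ∑ m', B i m' * Ex d B j m'
            + ∑ m', B j m' * Ex d B i m' - ∑ m', B j m' * Ex d B j m') := by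
      rw [← Finset.sum_sub_distrib, ← Finset.sum_add_distrib, ← Finset.sum_sub_distrib,
        Finset.mul_sum]
      apply Finset.sum_congr rfl
      intro m' _
      ring
    rw [e2, ← h1, ← h2, ← h3, ← h4, h5]
    ring
  rw [e]
  unfold HH
  apply jensen
  · intro m'
    have := hB.nonneg i m'
    have := hB.nonneg j m'
    positivity
  · rw [← Finset.mul_sum, Finset.sum_add_distrib, hB.stoch i, hB.stoch j]
    norm_num

include hds in
lemma EE_sq {B : Matrix (Fin n) (Fin n) ℝ} (hB : PS B) (i j : Fin n) :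
    (EE d B i j) ^ 2 ≤ HH d B i j := by
  have e : EE d B i j
      = ∑ m', (-(1 / 2) * (B i m' - B j m')) * (Ex d B i m' - Ex d B j m') := by
    unfold EE TT
    have h1 := DD_eq_Ex (d := d) B i i
    have h2 := DD_eq_Ex (d := d) B j j
    have h3 := DD_eq_Ex (d := d) B i j
    have h4 := DD_eq_Ex (d := d) B j i
    have h5 := DD_symm hds B i j
    have e2 : ∑ m', (-(1 / 2) * (B i m' - B j m')) * (Ex d B i m' - Ex d B j m')
        = -(1 / 2) * (∑ m', B i m' * Ex d B i m' - ∑ m', B i m' * Ex d B j m'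
            - ∑ m', B j m' * Ex d B i m' + ∑ m', B j m' * Ex d B j m') := by
      rw [← Finset.sum_sub_distrib, ← Finset.sum_sub_distrib, ← Finset.sum_add_distrib,
        Finset.mul_sum]
      apply Finset.sum_congr rfl
      intro m' _
      ring
    rw [e2, ← h1, ← h2, ← h3, ← h4, ← h5]
    ring
  rw [e]
  unfold HH
  apply jensen'
  · intro m'
    have := hB.nonneg i m'
    have := hB.nonneg j m'
    positivity
  · rw [← Finset.mul_sum, Finset.sum_add_distrib, hB.stoch i, hB.stoch j]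
    norm_num
  · intro m'
    have h1 := hB.nonneg i m'
    have h2 := hB.nonneg j m'
    rw [abs_le]
    constructor <;> linarith

end Core

section Swap

variable {w : Fin n → ℝ} {A : Matrix (Fin n) (Fin n) ℝ}

/-- Swapping the two indices in a reversible double sum. -/
lemma swap_sum (hrev : ∀ i j, w i * A i j = w j * A j i) (H : Fin n → Fin n → ℝ) :
    ∑ i, ∑ j, w i * A i j * H j i = ∑ i, ∑ j, w i * A i j * H i j := by
  rw [Finset.sum_comm]
  apply Finset.sum_congr rfl
  intro i _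
  apply Finset.sum_congr rfl
  intro j _
  rw [hrev j i]

/-- The Dirichlet form identity. -/
lemma dirichlet (hrev : ∀ i j, w i * A i j = w j * A j i) (hA1 : ∀ i, ∑ j, A i j = 1)
    (V G : Fin n → ℝ) :
    ∑ i, ∑ j, w i * A i j * (V i * (G i - G j) ^ 2)
      = 2 * ∑ i, w i * (V i * G i * (G i - ∑ j, A i j * G j))
        - ∑ i, w i * ((V i - ∑ j, A i j * V j) * G i ^ 2) := by
  have h1 : ∀ i, ∑ j, w i * A i j * (V i * G i ^ 2) = w i * (V i * G i ^ 2) := by
    intro i
    rw [← Finset.sum_mul, ← Finset.mul_sum, hA1 i, mul_one]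
  have h2 : ∀ i, ∑ j, w i * A i j * (V i * G i * G j) = w i * (V i * G i * ∑ j, A i j * G j) := by
    intro i
    rw [Finset.mul_sum, Finset.mul_sum]
    apply Finset.sum_congr rfl
    intro j _
    ring
  have h3 := swap_sum hrev (fun i j => V j * G i ^ 2)
  have h4 : ∀ i, ∑ j, w i * A i j * (V j * G i ^ 2) = w i * ((∑ j, A i j * V j) * G i ^ 2) := by
    intro i
    rw [Finset.sum_mul, Finset.mul_sum]
    apply Finset.sum_congr rfl
    intro j _
    ring
  have e : ∀ i j, w i * A i j * (V i * (G i - G j) ^ 2)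
      = w i * A i j * (V i * G i ^ 2) - 2 * (w i * A i j * (V i * G i * G j))
        + w i * A i j * (V i * G j ^ 2) := by
    intro i j
    ring
  simp_rw [e]
  simp_rw [Finset.sum_add_distrib, Finset.sum_sub_distrib, ← Finset.mul_sum, h1, h2]
  -- the last sum
  have h5 : ∑ i, ∑ j, w i * A i j * (V i * G j ^ 2) = ∑ i, w i * ((∑ j, A i j * V j) * G i ^ 2) := by
    rw [h3]
    exact Finset.sum_congr rfl fun i _ => h4 i
  rw [h5]
  have e1 : ∑ i, w i * ((V i - ∑ j, A i j * V j) * G i ^ 2)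
      = ∑ i, w i * (V i * G i ^ 2) - ∑ i, w i * ((∑ j, A i j * V j) * G i ^ 2) := by
    rw [← Finset.sum_sub_distrib]
    apply Finset.sum_congr rfl
    intro i _
    ring
  have e2 : ∑ i, w i * (V i * G i * (G i - ∑ j, A i j * G j))
      = ∑ i, w i * (V i * G i ^ 2) - ∑ i, w i * (V i * G i * ∑ j, A i j * G j) := by
    rw [← Finset.sum_sub_distrib]
    apply Finset.sum_congr rfl
    intro i _
    ring
  rw [e1, e2]
  ring

end Swap

section Main

variable {w : Fin n → ℝ} {d : Fin n → Fin n → ℝ} {A B C : Matrix (Fin n) (Fin n) ℝ}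

variable (hw : ∀ i, 0 ≤ w i)
  (hd0 : ∀ a b, 0 ≤ d a b) (hds : ∀ a b, d a b = d b a) (hdt : ∀ a b c, d a c ≤ d a b + d b c)
  (hrev : ∀ i j, w i * A i j = w j * A j i) (hA : PS A) (hB : PS B) (hC : PS C)
  {t : ℝ} (ht : 0 < t) (hAB : ∀ i j, B i j - ∑ k, A i k * B k j = 1 / t * (A i j - C i j))

include hd0 hrev hA hB hC ht hAB hw in
/-- For one fixed base point `m'`: the Dirichlet energy of the smoothed potential. -/
lemma T_single (m' : Fin n) :
    t * ∑ i, ∑ j, w i * A i j * (B i m' * (Ex d B i m' - Ex d B j m') ^ 2)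
      ≤ ∑ i, (w i * B i m' * Ex d B i m' ^ 2 + w i * B i m' * Ex d A i m' ^ 2
          + w i * C i m' * Ex d B i m' ^ 2) := by
  rw [dirichlet hrev hA.stoch (fun i => B i m') (fun i => Ex d B i m')]
  have h1 : ∀ i, B i m' - ∑ j, A i j * B j m' = 1 / t * (A i m' - C i m') := fun i => hAB i m'
  have h2 : ∀ i, Ex d B i m' - ∑ j, A i j * Ex d B j m' = 1 / t * (Ex d A i m' - Ex d C i m') := by
    intro i
    unfold Ex
    have e1 : ∑ j, A i j * ∑ m, B j m * d m m' = ∑ m, (∑ j, A i j * B j m) * d m m' := by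
      simp_rw [Finset.mul_sum, Finset.sum_mul]
      rw [Finset.sum_comm]
      apply Finset.sum_congr rfl
      intro m _
      apply Finset.sum_congr rfl
      intro j _
      ring
    rw [e1, ← Finset.sum_sub_distrib, ← Finset.sum_sub_distrib, Finset.mul_sum]
    apply Finset.sum_congr rfl
    intro m _
    rw [← sub_mul, hAB i m, ← sub_mul]
    ring
  simp only [h1, h2]
  have e : t * (2 * ∑ i, w i * (B i m' * Ex d B i m' * (1 / t * (Ex d A i m' - Ex d C i m')))
        - ∑ i, w i * (1 / t * (A i m' - C i m') * Ex d B i m' ^ 2))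
      = ∑ i, w i * (2 * (B i m' * Ex d B i m' * (Ex d A i m' - Ex d C i m'))
          - (A i m' - C i m') * Ex d B i m' ^ 2) := by
    rw [Finset.mul_sum, ← Finset.sum_sub_distrib, Finset.mul_sum]
    apply Finset.sum_congr rfl
    intro i _
    field_simp
  rw [e]
  apply Finset.sum_le_sum
  intro i _
  have hG := Ex_nonneg (d := d) hd0 hB i m'
  have hK := Ex_nonneg (d := d) hd0 hC i m'
  have hV := hB.nonneg i m'
  have hAi := hA.nonneg i m'
  have h3 : 0 ≤ B i m' * (Ex d B i m' - Ex d A i m') ^ 2 + 2 * (B i m' * Ex d B i m' * Ex d C i m')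
      + A i m' * Ex d B i m' ^ 2 := by positivity
  have h4 := mul_nonneg (hw i) h3
  nlinarith [h4]

include hrev in
lemma HH_total :
    ∑ i, ∑ j, w i * A i j * HH d B i j
      = ∑ i, ∑ j, w i * A i j * ∑ m', B i m' * (Ex d B i m' - Ex d B j m') ^ 2 := by
  have h : ∑ i, ∑ j, w i * A i j * ∑ m', B j m' * (Ex d B j m' - Ex d B i m') ^ 2
      = ∑ i, ∑ j, w i * A i j * ∑ m', B i m' * (Ex d B i m' - Ex d B j m') ^ 2 :=
    swap_sum hrev (fun i j => ∑ m', B i m' * (Ex d B i m' - Ex d B j m') ^ 2)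
  have e : ∀ i j, w i * A i j * HH d B i j
      = 1 / 2 * (w i * A i j * ∑ m', B i m' * (Ex d B i m' - Ex d B j m') ^ 2)
        + 1 / 2 * (w i * A i j * ∑ m', B j m' * (Ex d B j m' - Ex d B i m') ^ 2) := by
    intro i j
    have e0 : HH d B i j = 1 / 2 * ∑ m', B i m' * (Ex d B i m' - Ex d B j m') ^ 2
        + 1 / 2 * ∑ m', B j m' * (Ex d B j m' - Ex d B i m') ^ 2 := by
      unfold HH
      rw [Finset.mul_sum, Finset.mul_sum, ← Finset.sum_add_distrib]
      apply Finset.sum_congr rfl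
      intro m' _
      ring
    rw [e0]
    ring
  simp_rw [e]
  simp_rw [Finset.sum_add_distrib, ← Finset.mul_sum]
  rw [h]
  ring

include hd0 hrev hA hB hC ht hAB hw in
lemma T_total :
    t * ∑ i, ∑ j, w i * A i j * HH d B i j ≤ Qq w d B B + Qq w d B A + Qq w d C B := by
  rw [HH_total hrev]
  have e1 : ∑ i, ∑ j, w i * A i j * ∑ m', B i m' * (Ex d B i m' - Ex d B j m') ^ 2
      = ∑ m', ∑ i, ∑ j, w i * A i j * (B i m' * (Ex d B i m' - Ex d B j m') ^ 2) := by
    symm
    rw [Finset.sum_comm]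
    apply Finset.sum_congr rfl
    intro i _
    rw [Finset.sum_comm]
    apply Finset.sum_congr rfl
    intro j _
    rw [Finset.mul_sum]
  rw [e1, Finset.mul_sum]
  refine (Finset.sum_le_sum fun m' _ => T_single hw hd0 hrev hA hB hC ht hAB m').trans (le_of_eq ?_)
  unfold Qq
  rw [Finset.sum_comm, ← Finset.sum_add_distrib, ← Finset.sum_add_distrib]
  apply Finset.sum_congr rfl
  intro i _
  rw [← Finset.sum_add_distrib, ← Finset.sum_add_distrib]

include hd0 hds hrev hA hB ht hAB in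
/-- The local energy inequality. -/
lemma local_energy (i : Fin n) :
    ∑ j, A i j * EE d B i j
      ≤ TT d B i - ∑ j, A i j * TT d B j + 1 / t * ∑ m', C i m' * Ex d B i m' := by
  have h1 : ∑ j, A i j * DD d B i j = ∑ m', (∑ j, A i j * B j m') * Ex d B i m' := by
    simp_rw [DD_eq_Ex (d := d) B i, Finset.mul_sum, Finset.sum_mul]
    rw [Finset.sum_comm]
    apply Finset.sum_congr rfl
    intro m' _
    apply Finset.sum_congr rfl
    intro j _
    ring
  have h2 : ∑ m', (∑ j, A i j * B j m') * Ex d B i m'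
      = ∑ m', B i m' * Ex d B i m' - 1 / t * ∑ m', A i m' * Ex d B i m'
        + 1 / t * ∑ m', C i m' * Ex d B i m' := by
    rw [Finset.mul_sum, Finset.mul_sum, ← Finset.sum_sub_distrib, ← Finset.sum_add_distrib]
    apply Finset.sum_congr rfl
    intro m' _
    have := hAB i m'
    have e : ∑ j, A i j * B j m' = B i m' - 1 / t * (A i m' - C i m') := by linarith
    rw [e]
    ring
  have h3 : 0 ≤ 1 / t * ∑ m', A i m' * Ex d B i m' := by
    apply mul_nonneg (by positivity)
    exact Finset.sum_nonneg fun m' _ => mul_nonneg (hA.nonneg i m') (Ex_nonneg hd0 hB i m')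
  have h4 : ∑ m', B i m' * Ex d B i m' = 2 * TT d B i := by
    unfold TT
    rw [DD_eq_Ex (d := d) B i i]
    ring
  have h5 : ∑ j, A i j * EE d B i j
      = ∑ j, A i j * DD d B i j - TT d B i - ∑ j, A i j * TT d B j := by
    unfold EE
    have e0 : ∑ j, A i j * (DD d B i j - TT d B i - TT d B j)
        = ∑ j, (A i j * DD d B i j - A i j * TT d B i - A i j * TT d B j) :=
      Finset.sum_congr rfl fun j _ => by ring
    rw [e0, Finset.sum_sub_distrib, Finset.sum_sub_distrib, ← Finset.sum_mul, hA.stoch i, one_mul]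
  rw [h5, h1, h2, h4]
  linarith

include hw hd0 hds hdt hrev hA hB hC ht hAB in
/-- The algebraic core of the proof. -/
theorem core_bound (hmA : mom w d A ≤ 4 * mom w d B) (hmC : mom w d C ≤ 4 * mom w d B) :
    t * ∑ i, ∑ j, w i * A i j * (9 * ((TT d B i + TT d B j) * EE d B i j) + 2 * EE d B i j ^ 2)
      ≤ 363 * mom w d B := by
  set F := mom w d B with hF
  have hF0 : 0 ≤ F := mom_nonneg hw hB
  have hQ1 : Qq w d B B ≤ 4 * F := by
    have := Qq_le hw hd0 hds hdt hB hB
    linarith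
  have hQ2 : Qq w d B A ≤ 10 * F := by
    have := Qq_le hw hd0 hds hdt hB hA
    linarith
  have hQ3 : Qq w d C B ≤ 10 * F := by
    have := Qq_le hw hd0 hds hdt hC hB
    linarith
  set 𝒯 := ∑ i, ∑ j, w i * A i j * HH d B i j with h𝒯
  have hT : t * 𝒯 ≤ 24 * F := by
    have := T_total (d := d) hw hd0 hrev hA hB hC ht hAB
    linarith
  -- the two squares
  have hwA : ∀ i j, 0 ≤ w i * A i j := fun i j => mul_nonneg (hw i) (hA.nonneg i j)
  have hE : ∑ i, ∑ j, w i * A i j * EE d B i j ^ 2 ≤ 𝒯 :=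
    Finset.sum_le_sum fun i _ => Finset.sum_le_sum fun j _ =>
      mul_le_mul_of_nonneg_left (EE_sq hds hB i j) (hwA i j)
  have hTh : ∑ i, ∑ j, w i * A i j * (TT d B i - TT d B j) ^ 2 ≤ 𝒯 :=
    Finset.sum_le_sum fun i _ => Finset.sum_le_sum fun j _ =>
      mul_le_mul_of_nonneg_left (TT_sub_sq hds hB i j) (hwA i j)
  -- the two moment terms
  set R : Fin n → ℝ := fun i => ∑ m', C i m' * Ex d B i m' with hR
  have hR2 : ∑ i, w i * R i ^ 2 ≤ 10 * F := by
    refine le_trans ?_ hQ3
    unfold Qq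
    apply Finset.sum_le_sum
    intro i _
    have := jensen (C i) (fun m' => Ex d B i m') (hC.nonneg i) (hC.stoch i)
    have h2 : w i * R i ^ 2 ≤ w i * ∑ m', C i m' * Ex d B i m' ^ 2 :=
      mul_le_mul_of_nonneg_left this (hw i)
    refine h2.trans (le_of_eq ?_)
    rw [Finset.mul_sum]
    apply Finset.sum_congr rfl
    intro m' _
    ring
  have hT2 : ∑ i, w i * TT d B i ^ 2 ≤ F := by
    have h3 : ∑ i, w i * TT d B i ^ 2 ≤ 1 / 4 * Qq w d B B := by
      unfold Qq
      rw [Finset.mul_sum]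
      apply Finset.sum_le_sum
      intro i _
      have := jensen (B i) (fun m' => Ex d B i m') (hB.nonneg i) (hB.stoch i)
      have h2 : TT d B i = (∑ m', B i m' * Ex d B i m') / 2 := by
        unfold TT
        rw [DD_eq_Ex (d := d) B i i]
      have h4 : TT d B i ^ 2 ≤ 1 / 4 * ∑ m', B i m' * Ex d B i m' ^ 2 := by
        rw [h2]
        nlinarith
      have h5 : w i * TT d B i ^ 2 ≤ w i * (1 / 4 * ∑ m', B i m' * Ex d B i m' ^ 2) :=
        mul_le_mul_of_nonneg_left h4 (hw i)
      refine h5.trans (le_of_eq ?_)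
      rw [Finset.mul_sum, Finset.mul_sum, Finset.mul_sum]
      apply Finset.sum_congr rfl
      intro m' _
      ring
    linarith
  have hTR : 2 * ∑ i, w i * (TT d B i * R i) ≤ 11 * F := by
    have h3 : 2 * ∑ i, w i * (TT d B i * R i) ≤ ∑ i, w i * TT d B i ^ 2 + ∑ i, w i * R i ^ 2 := by
      rw [Finset.mul_sum, ← Finset.sum_add_distrib]
      apply Finset.sum_le_sum
      intro i _
      have := mul_nonneg (hw i) (sq_nonneg (TT d B i - R i))
      nlinarith
    linarith
  -- the swap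
  have hS1 : ∑ i, ∑ j, w i * A i j * ((TT d B i + TT d B j) * EE d B i j)
      = 2 * ∑ i, w i * (TT d B i * ∑ j, A i j * EE d B i j) := by
    have h3 : ∑ i, ∑ j, w i * A i j * (TT d B j * EE d B j i)
        = ∑ i, ∑ j, w i * A i j * (TT d B i * EE d B i j) :=
      swap_sum hrev (fun i j => TT d B i * EE d B i j)
    have e1 : ∀ i j, w i * A i j * ((TT d B i + TT d B j) * EE d B i j)
        = w i * A i j * (TT d B i * EE d B i j) + w i * A i j * (TT d B j * EE d B j i) := by
      intro i j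
      rw [EE_symm hds B j i]
      ring
    simp_rw [e1, Finset.sum_add_distrib]
    rw [h3, ← two_mul]
    congr 1
    apply Finset.sum_congr rfl
    intro i _
    rw [Finset.mul_sum, Finset.mul_sum]
    apply Finset.sum_congr rfl
    intro j _
    ring
  have hloc : ∑ i, w i * (TT d B i * ∑ j, A i j * EE d B i j)
      ≤ ∑ i, w i * (TT d B i * (TT d B i - ∑ j, A i j * TT d B j))
        + 1 / t * ∑ i, w i * (TT d B i * R i) := by
    rw [Finset.mul_sum, ← Finset.sum_add_distrib]
    apply Finset.sum_le_sum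
    intro i _
    have h3 := local_energy (d := d) hd0 hds hrev hA hB (C := C) ht hAB i
    have h4 : 0 ≤ w i * TT d B i := mul_nonneg (hw i) (TT_nonneg hd0 hB i)
    have h5 := mul_le_mul_of_nonneg_left h3 h4
    calc w i * (TT d B i * ∑ j, A i j * EE d B i j)
        = w i * TT d B i * ∑ j, A i j * EE d B i j := by ring
      _ ≤ w i * TT d B i * (TT d B i - ∑ j, A i j * TT d B j
            + 1 / t * ∑ m', C i m' * Ex d B i m') := h5
      _ = _ := by
          simp only [hR]
          ring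
  have hdir : 2 * ∑ i, w i * (TT d B i * (TT d B i - ∑ j, A i j * TT d B j))
      = ∑ i, ∑ j, w i * A i j * (TT d B i - TT d B j) ^ 2 := by
    have h3 := dirichlet hrev hA.stoch (fun _ => (1 : ℝ)) (TT d B)
    have h4 : ∑ i, w i * ((1 - ∑ j, A i j * (1 : ℝ)) * TT d B i ^ 2) = 0 := by
      apply Finset.sum_eq_zero
      intro i _
      have : ∑ j, A i j * (1 : ℝ) = 1 := by simpa using hA.stoch i
      rw [this]
      ring
    rw [h4] at h3
    simp only [one_mul, sub_zero] at h3
    exact h3.symm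
  -- assemble
  have hS2 : t * ∑ i, ∑ j, w i * A i j * ((TT d B i + TT d B j) * EE d B i j) ≤ 35 * F := by
    rw [hS1]
    have h3 : 2 * ∑ i, w i * (TT d B i * ∑ j, A i j * EE d B i j)
        ≤ 𝒯 + 1 / t * (11 * F) := by
      have h4 : 1 / t * (2 * ∑ i, w i * (TT d B i * R i)) ≤ 1 / t * (11 * F) :=
        mul_le_mul_of_nonneg_left hTR (by positivity)
      have h5 : 2 * (1 / t * ∑ i, w i * (TT d B i * R i))
          = 1 / t * (2 * ∑ i, w i * (TT d B i * R i)) := by ring
      linarith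
    have h4 := mul_le_mul_of_nonneg_left h3 ht.le
    have e : t * (𝒯 + 1 / t * (11 * F)) = t * 𝒯 + 11 * F := by
      field_simp
    rw [e] at h4
    linarith
  have hE2 : t * ∑ i, ∑ j, w i * A i j * EE d B i j ^ 2 ≤ 24 * F := by
    have := mul_le_mul_of_nonneg_left hE ht.le
    linarith
  have e : ∑ i, ∑ j, w i * A i j * (9 * ((TT d B i + TT d B j) * EE d B i j) + 2 * EE d B i j ^ 2)
      = 9 * ∑ i, ∑ j, w i * A i j * ((TT d B i + TT d B j) * EE d B i j)
        + 2 * ∑ i, ∑ j, w i * A i j * EE d B i j ^ 2 := by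
    rw [Finset.mul_sum, Finset.mul_sum, ← Finset.sum_add_distrib]
    apply Finset.sum_congr rfl
    intro i _
    rw [Finset.mul_sum, Finset.mul_sum, ← Finset.sum_add_distrib]
    apply Finset.sum_congr rfl
    intro j _
    ring
  rw [e, mul_add, ← mul_assoc, mul_comm t 9, mul_assoc, ← mul_assoc t 2, mul_comm t 2, mul_assoc]
  linarith

end Main

end Crest.Agent.Lib.Cotype
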