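import Mathlib
import Crest.Agent.Lib.Cotype.Core

/-!
# Chain lemmas: powers of a reversible stochastic matrix
-/

set_option autoImplicit false

namespace Crest.Agent.Lib.Cotype

open Finset

variable {n : ℕ} {w : Fin n → ℝ} {d : Fin n → Fin n → ℝ} {A : Matrix (Fin n) (Fin n) ℝ}

lemma pow_entry_nonneg (hA : ∀ i j, 0 ≤ A i j) (s : ℕ) : ∀ i j, 0 ≤ (A ^ s) i j := by
  induction s with
  | zero =>
    intro i j
    rw [pow_zero, Matrix.one_apply]
    split <;> norm_num
  | succ s ih =>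
    intro i j
    rw [pow_succ, Matrix.mul_apply]
    exact Finset.sum_nonneg fun k _ => mul_nonneg (ih i k) (hA k j)

lemma pow_stoch (hA1 : ∀ i, ∑ j, A i j = 1) (s : ℕ) : ∀ i, ∑ j, (A ^ s) i j = 1 := by
  induction s with
  | zero =>
    intro i
    simp [Matrix.one_apply]
  | succ s ih =>
    intro i
    rw [pow_succ]
    simp_rw [Matrix.mul_apply]
    rw [Finset.sum_comm]
    simp_rw [← Finset.mul_sum, hA1, mul_one]
    exact ih i

lemma pow_rev (hrev : ∀ i j, w i * A i j = w j * A j i) (s : ℕ) :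
    ∀ i j, w i * (A ^ s) i j = w j * (A ^ s) j i := by
  induction s with
  | zero =>
    intro i j
    rw [pow_zero, Matrix.one_apply, Matrix.one_apply]
    by_cases h : i = j
    · subst h; simp
    · have h' : ¬ j = i := fun e => h e.symm
      simp [h, h']
  | succ s ih =>
    intro i j
    have e1 : (A ^ (s + 1)) i j = ∑ k, (A ^ s) i k * A k j := by
      rw [pow_succ, Matrix.mul_apply]
    have e2 : (A ^ (s + 1)) j i = ∑ k, A j k * (A ^ s) k i := by
      rw [pow_succ', Matrix.mul_apply]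
    rw [e1, e2, Finset.mul_sum, Finset.mul_sum]
    apply Finset.sum_congr rfl
    intro k _
    calc w i * ((A ^ s) i k * A k j) = (w i * (A ^ s) i k) * A k j := by ring
      _ = (w k * (A ^ s) k i) * A k j := by rw [ih i k]
      _ = (w k * A k j) * (A ^ s) k i := by ring
      _ = (w j * A j k) * (A ^ s) k i := by rw [hrev k j]
      _ = w j * (A j k * (A ^ s) k i) := by ring

/-- Stationarity. -/
lemma stationary {P : Matrix (Fin n) (Fin n) ℝ} (hP : PS P)
    (hrev : ∀ i j, w i * P i j = w j * P j i) (k : Fin n) :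
    ∑ i, w i * P i k = w k := by
  simp_rw [hrev _ k]
  rw [← Finset.mul_sum, hP.stoch k, mul_one]

lemma sq_tri (hd0 : ∀ a b, 0 ≤ d a b) (hdt : ∀ a b c, d a c ≤ d a b + d b c) (a b c : Fin n) :
    d a c ^ 2 ≤ 2 * d a b ^ 2 + 2 * d b c ^ 2 := by
  have h1 := hdt a b c
  have h2 := hd0 a c
  nlinarith [sq_nonneg (d a b - d b c), hd0 a b, hd0 b c]

lemma sq_tri' (hd0 : ∀ a b, 0 ≤ d a b) (hds : ∀ a b, d a b = d b a)
    (hdt : ∀ a b c, d a c ≤ d a b + d b c) (a b c : Fin n) :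
    d a b ^ 2 ≤ 2 * d a c ^ 2 + 2 * d b c ^ 2 := by
  have h := sq_tri hd0 hdt a c b
  rwa [hds c b] at h

/-- Composition of second moments. -/
lemma mom_mul_le (hw : ∀ i, 0 ≤ w i) (hd0 : ∀ a b, 0 ≤ d a b)
    (hdt : ∀ a b c, d a c ≤ d a b + d b c)
    {P Q : Matrix (Fin n) (Fin n) ℝ} (hP : PS P) (hQ : PS Q)
    (hrev : ∀ i j, w i * P i j = w j * P j i) :
    mom w d (P * Q) ≤ 2 * mom w d P + 2 * mom w d Q := by
  unfold mom
  have h1 : ∑ i, ∑ j, w i * (P * Q) i j * d i j ^ 2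
      ≤ ∑ i, ∑ j, ∑ k, (2 * (w i * P i k * d i k ^ 2 * Q k j)
          + 2 * (w i * P i k * (Q k j * d k j ^ 2))) := by
    apply Finset.sum_le_sum
    intro i _
    apply Finset.sum_le_sum
    intro j _
    rw [Matrix.mul_apply, Finset.mul_sum, Finset.sum_mul]
    apply Finset.sum_le_sum
    intro k _
    have h2 := sq_tri hd0 hdt i k j
    have h3 : 0 ≤ w i * (P i k * Q k j) :=
      mul_nonneg (hw i) (mul_nonneg (hP.nonneg i k) (hQ.nonneg k j))
    have h4 := mul_le_mul_of_nonneg_left h2 h3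
    linarith
  refine h1.trans (le_of_eq ?_)
  simp_rw [Finset.sum_add_distrib]
  congr 1
  · rw [Finset.mul_sum]
    apply Finset.sum_congr rfl
    intro i _
    rw [Finset.sum_comm, Finset.mul_sum]
    apply Finset.sum_congr rfl
    intro k _
    rw [← Finset.mul_sum, ← Finset.mul_sum, hQ.stoch k, mul_one]
  · rw [Finset.sum_comm]
    have : ∀ j, ∑ i, ∑ k, 2 * (w i * P i k * (Q k j * d k j ^ 2))
        = 2 * ∑ k, w k * Q k j * d k j ^ 2 := by
      intro j
      rw [Finset.sum_comm, Finset.mul_sum]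
      apply Finset.sum_congr rfl
      intro k _
      rw [← Finset.mul_sum, ← Finset.sum_mul, stationary hP hrev k]
      ring
    simp_rw [this]
    rw [← Finset.mul_sum, Finset.sum_comm]

/-- A second moment is bounded through a pivot. -/
lemma mom_pivot (hw : ∀ i, 0 ≤ w i) (hd0 : ∀ a b, 0 ≤ d a b) (hds : ∀ a b, d a b = d b a)
    (hdt : ∀ a b c, d a c ≤ d a b + d b c)
    {P Q : Matrix (Fin n) (Fin n) ℝ} (hP : PS P) (hQ : PS Q)
    (hrev : ∀ i j, w i * P i j = w j * P j i) :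
    mom w d P ≤ 2 * mom w d (P * Q) + 2 * mom w d Q := by
  unfold mom
  have h1 : ∑ i, ∑ j, w i * P i j * d i j ^ 2
      ≤ ∑ i, ∑ j, ∑ k, (2 * (w i * (P i j * Q j k) * d i k ^ 2)
          + 2 * (w i * P i j * (Q j k * d j k ^ 2))) := by
    apply Finset.sum_le_sum
    intro i _
    apply Finset.sum_le_sum
    intro j _
    have e : w i * P i j * d i j ^ 2 = ∑ k, w i * P i j * Q j k * d i j ^ 2 := by
      rw [← Finset.sum_mul, ← Finset.mul_sum, hQ.stoch j, mul_one]
    rw [e]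
    apply Finset.sum_le_sum
    intro k _
    have h2 := sq_tri' hd0 hds hdt i j k
    have h3 : 0 ≤ w i * P i j * Q j k :=
      mul_nonneg (mul_nonneg (hw i) (hP.nonneg i j)) (hQ.nonneg j k)
    have h4 := mul_le_mul_of_nonneg_left h2 h3
    linarith
  refine h1.trans (le_of_eq ?_)
  simp_rw [Finset.sum_add_distrib]
  congr 1
  · rw [Finset.mul_sum]
    apply Finset.sum_congr rfl
    intro i _
    rw [Finset.sum_comm, Finset.mul_sum]
    apply Finset.sum_congr rfl
    intro k _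
    rw [Matrix.mul_apply, Finset.mul_sum, Finset.sum_mul, Finset.mul_sum]
  · rw [Finset.sum_comm]
    rw [Finset.mul_sum]
    apply Finset.sum_congr rfl
    intro j _
    have : ∀ i k, 2 * (w i * P i j * (Q j k * d j k ^ 2))
        = 2 * (w i * P i j) * (Q j k * d j k ^ 2) := by
      intro i k
      ring
    simp_rw [this, ← Finset.mul_sum, ← Finset.sum_mul, ← Finset.mul_sum, stationary hP hrev j]
    rw [Finset.mul_sum, Finset.mul_sum]
    apply Finset.sum_congr rfl
    intro k _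
    ring

section Pow

variable (hw : ∀ i, 0 ≤ w i) (hd0 : ∀ a b, 0 ≤ d a b) (hds : ∀ a b, d a b = d b a)
  (hdt : ∀ a b c, d a c ≤ d a b + d b c) (hdd : ∀ a, d a a = 0)
  (hA : ∀ i j, 0 ≤ A i j) (hA1 : ∀ i, ∑ j, A i j = 1)
  (hrev : ∀ i j, w i * A i j = w j * A j i)

include hA hA1 in
lemma pow_PS (s : ℕ) : PS (A ^ s) := ⟨pow_entry_nonneg hA s, pow_stoch hA1 s⟩

include hw hd0 hdt hA hA1 hrev in
lemma mom_add (a b : ℕ) : mom w d (A ^ (a + b)) ≤ 2 * mom w d (A ^ a) + 2 * mom w d (A ^ b) := by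
  rw [pow_add]
  exact mom_mul_le hw hd0 hdt (pow_PS hA hA1 a) (pow_PS hA hA1 b) (pow_rev hrev a)

include hw hd0 hds hdt hA hA1 hrev in
lemma mom_one_le (s : ℕ) : mom w d A ≤ 2 * mom w d (A ^ (s + 1)) + 2 * mom w d (A ^ s) := by
  have h := mom_pivot hw hd0 hds hdt (P := A) (Q := A ^ s) ⟨hA, hA1⟩ (pow_PS hA hA1 s) hrev
  rwa [← pow_succ'] at h

include hdd in
lemma mom_zero : mom w d (A ^ 0) = 0 := by
  unfold mom
  apply Finset.sum_eq_zero
  intro i _
  apply Finset.sum_eq_zero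
  intro j _
  rw [pow_zero, Matrix.one_apply]
  by_cases h : i = j
  · subst h
    rw [hdd]
    ring
  · simp [h]

lemma sum_Icc_eq_range {M : Type*} [AddCommMonoid M] (h : ℕ → M) (t : ℕ) :
    ∑ s ∈ Finset.Icc 1 t, h s = ∑ s ∈ Finset.range t, h (s + 1) := by
  induction t with
  | zero => simp
  | succ t ih =>
    rw [Finset.sum_Icc_succ_top (by omega), ih, Finset.sum_range_succ]

/-- Telescoping. -/
lemma tele (t : ℕ) :
    ∑ s ∈ Finset.range t, A ^ (s + 1) - A * ∑ s ∈ Finset.range t, A ^ (s + 1) = A - A ^ (t + 1) := by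
  induction t with
  | zero => simp
  | succ t ih =>
    rw [Finset.sum_range_succ, mul_add, ← pow_succ' A (t + 1)]
    have : ∀ X Y Z W : Matrix (Fin n) (Fin n) ℝ, X + Y - (Z + W) = (X - Z) + Y - W := by
      intro X Y Z W
      abel
    rw [this, ih]
    abel

/-- The averaged matrix. -/
noncomputable def Bav (A : Matrix (Fin n) (Fin n) ℝ) (t : ℕ) : Matrix (Fin n) (Fin n) ℝ :=
  (1 / (t : ℝ)) • ∑ s ∈ Finset.Icc 1 t, A ^ s

lemma Bav_apply (t : ℕ) (i j : Fin n) :
    Bav A t i j = 1 / (t : ℝ) * ∑ s ∈ Finset.range t, (A ^ (s + 1)) i j := by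
  unfold Bav
  rw [sum_Icc_eq_range, Matrix.smul_apply, smul_eq_mul, Matrix.sum_apply]

include hA hA1 in
lemma Bav_PS {t : ℕ} (ht : 1 ≤ t) : PS (Bav A t) := by
  have ht0 : (0 : ℝ) < t := by exact_mod_cast ht
  constructor
  · intro i j
    rw [Bav_apply]
    apply mul_nonneg (by positivity)
    exact Finset.sum_nonneg fun s _ => pow_entry_nonneg hA _ i j
  · intro i
    simp_rw [Bav_apply]
    rw [← Finset.mul_sum, Finset.sum_comm]
    simp_rw [pow_stoch hA1]
    simp
    field_simp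

lemma Bav_tele (t : ℕ) (i j : Fin n) :
    Bav A t i j - ∑ k, A i k * Bav A t k j = 1 / (t : ℝ) * (A i j - (A ^ (t + 1)) i j) := by
  have h := tele (A := A) t
  have h2 : (Bav A t) - A * Bav A t = (1 / (t : ℝ)) • (A - A ^ (t + 1)) := by
    unfold Bav
    rw [sum_Icc_eq_range, Matrix.mul_smul, ← smul_sub, h]
  have h3 := congrFun (congrFun h2 i) j
  simpa [Matrix.mul_apply] using h3

lemma mom_Bav (t : ℕ) :
    mom w d (Bav A t) = 1 / (t : ℝ) * ∑ s ∈ Finset.range t, mom w d (A ^ (s + 1)) := by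
  unfold mom
  simp_rw [Bav_apply]
  rw [Finset.sum_comm (s := Finset.range t)]
  rw [Finset.mul_sum]
  apply Finset.sum_congr rfl
  intro i _
  rw [Finset.sum_comm (s := Finset.range t), Finset.mul_sum]
  apply Finset.sum_congr rfl
  intro j _
  rw [Finset.mul_sum, Finset.mul_sum, Finset.sum_mul, Finset.mul_sum]
  apply Finset.sum_congr rfl
  intro s _
  ring

include hw hd0 hds hdt hdd hA hA1 hrev in
lemma mom_A_le {t : ℕ} (ht : 1 ≤ t) : mom w d A ≤ 4 * mom w d (Bav A t) := by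
  have ht0 : (0 : ℝ) < t := by exact_mod_cast ht
  rw [mom_Bav]
  have h1 : (t : ℝ) * mom w d A ≤ ∑ s ∈ Finset.range t, (2 * mom w d (A ^ (s + 1)) + 2 * mom w d (A ^ s)) := by
    have := Finset.sum_le_sum (s := Finset.range t) fun s _ =>
      mom_one_le (d := d) hw hd0 hds hdt hA hA1 hrev s
    simpa using this
  have h2 : ∑ s ∈ Finset.range t, mom w d (A ^ s) ≤ ∑ s ∈ Finset.range t, mom w d (A ^ (s + 1)) := by
    have e1 : ∑ s ∈ Finset.range (t + 1), mom w d (A ^ s)
        = ∑ s ∈ Finset.range t, mom w d (A ^ s) + mom w d (A ^ t) :=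
      Finset.sum_range_succ (fun s => mom w d (A ^ s)) t
    have e2 : ∑ s ∈ Finset.range (t + 1), mom w d (A ^ s)
        = ∑ s ∈ Finset.range t, mom w d (A ^ (s + 1)) + mom w d (A ^ 0) :=
      Finset.sum_range_succ' (fun s => mom w d (A ^ s)) t
    have e3 : 0 ≤ mom w d (A ^ t) := mom_nonneg hw (pow_PS hA hA1 t)
    rw [mom_zero hdd] at e2
    linarith
  rw [Finset.sum_add_distrib, ← Finset.mul_sum, ← Finset.mul_sum] at h1
  have e : 4 * (1 / (t : ℝ) * ∑ s ∈ Finset.range t, mom w d (A ^ (s + 1)))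
      = (4 * ∑ s ∈ Finset.range t, mom w d (A ^ (s + 1))) / t := by
    ring
  rw [e, le_div_iff₀ ht0]
  linarith

include hw hd0 hdt hA hA1 hrev in
lemma mom_C_le {t : ℕ} (ht : 1 ≤ t) : mom w d (A ^ (t + 1)) ≤ 4 * mom w d (Bav A t) := by
  have ht0 : (0 : ℝ) < t := by exact_mod_cast ht
  rw [mom_Bav]
  have h1 : (t : ℝ) * mom w d (A ^ (t + 1))
      ≤ ∑ s ∈ Finset.range t, (2 * mom w d (A ^ (s + 1)) + 2 * mom w d (A ^ (t - 1 - s + 1))) := by
    have : ∀ s ∈ Finset.range t, mom w d (A ^ (t + 1))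
        ≤ 2 * mom w d (A ^ (s + 1)) + 2 * mom w d (A ^ (t - 1 - s + 1)) := by
      intro s hs
      have hs' := Finset.mem_range.mp hs
      have h2 := mom_add (d := d) hw hd0 hdt hA hA1 hrev (s + 1) (t - 1 - s + 1)
      have e : s + 1 + (t - 1 - s + 1) = t + 1 := by omega
      rwa [e] at h2
    have := Finset.sum_le_sum this
    simpa using this
  have h2 : ∑ s ∈ Finset.range t, mom w d (A ^ (t - 1 - s + 1))
      = ∑ s ∈ Finset.range t, mom w d (A ^ (s + 1)) :=
    Finset.sum_range_reflect (fun s => mom w d (A ^ (s + 1))) t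
  rw [Finset.sum_add_distrib, ← Finset.mul_sum, ← Finset.mul_sum, h2] at h1
  have e : 4 * (1 / (t : ℝ) * ∑ s ∈ Finset.range t, mom w d (A ^ (s + 1)))
      = (4 * ∑ s ∈ Finset.range t, mom w d (A ^ (s + 1))) / t := by
    ring
  rw [e, le_div_iff₀ ht0]
  linarith

include hw hd0 hds hdt hdd hA hA1 hrev in
/-- The core inequality for `B = Bav A t`. -/
theorem chain_core {t : ℕ} (ht : 1 ≤ t) :
    (t : ℝ) * ∑ i, ∑ j, w i * A i j *
        (9 * ((TT d (Bav A t) i + TT d (Bav A t) j) * EE d (Bav A t) i j)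
          + 2 * EE d (Bav A t) i j ^ 2)
      ≤ 363 * mom w d (Bav A t) := by
  have ht0 : (0 : ℝ) < t := by exact_mod_cast ht
  exact core_bound hw hd0 hds hdt hrev ⟨hA, hA1⟩ (Bav_PS hA hA1 ht) (pow_PS hA hA1 (t + 1)) ht0
    (fun i j => Bav_tele t i j) (mom_A_le hw hd0 hds hdt hdd hA hA1 hrev ht)
    (mom_C_le hw hd0 hdt hA hA1 hrev ht)

end Pow

end Crest.Agent.Lib.Cotype
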