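import Mathlib

/-!
# Scalar layer for the Markov cotype two of `ℓ₁`

For a real function `f` on a finite set we take a layer-cake decomposition and use the map
`T(μ) = v + ∑ g_c ψ(μ{f > c})` with `ψ(u) = 3u² - 2u³`.
-/

set_option autoImplicit false

namespace Crest.Agent.Lib.Cotype

open Finset

variable {n : ℕ}

/-- Threshold indicator. -/
noncomputable def ind (c a : ℝ) : ℝ := if c < a then 1 else 0

lemma ind_nonneg (c a : ℝ) : 0 ≤ ind c a := by unfold ind; split <;> norm_num

lemma ind_le_one (c a : ℝ) : ind c a ≤ 1 := by unfold ind; split <;> norm_num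

lemma ind_mono (c : ℝ) {a b : ℝ} (h : a ≤ b) : ind c a ≤ ind c b := by
  unfold ind
  by_cases h1 : c < a
  · have : c < b := lt_of_lt_of_le h1 h
    simp [h1, this]
  · simp only [h1, if_false]
    split <;> norm_num

lemma ind_cases (c a : ℝ) : ind c a = 0 ∨ ind c a = 1 := by
  unfold ind; split <;> simp

/-- Layer-cake decomposition of a finite set of reals. -/
lemma layer_finset (s : Finset ℝ) :
    ∃ (L : Finset ℝ) (g : ℝ → ℝ) (v : ℝ), (∀ c ∈ L, 0 ≤ g c) ∧ (∀ c ∈ L, ∃ a ∈ s, c < a) ∧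
      ∀ a ∈ s, a = v + ∑ c ∈ L, g c * ind c a := by
  induction s using Finset.induction_on_max with
  | empty => exact ⟨∅, 0, 0, by simp, by simp, by simp⟩
  | insert a s hmax ih =>
    rcases ih with ⟨L, g, v, hg, hL, hrep⟩
    by_cases hs : s.Nonempty
    · -- take the top element `b` of `s`
      set b := s.max' hs with hb
      have hbs : b ∈ s := s.max'_mem hs
      have hba : b < a := hmax b hbs
      have hbL : b ∉ L := by
        intro hmem
        obtain ⟨a', ha', hlt⟩ := hL b hmem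
        exact absurd (s.le_max' a' ha') (not_le.mpr hlt)
      refine ⟨insert b L, Function.update g b (a - b), v, ?_, ?_, ?_⟩
      · intro c hc
        rcases Finset.mem_insert.mp hc with rfl | hc
        · simp only [Function.update_self]; linarith
        · have : c ≠ b := fun h => hbL (h ▸ hc)
          rw [Function.update_of_ne this]; exact hg c hc
      · intro c hc
        rcases Finset.mem_insert.mp hc with rfl | hc
        · exact ⟨a, Finset.mem_insert_self _ _, hba⟩
        · obtain ⟨a', ha', hlt⟩ := hL c hc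
          exact ⟨a', Finset.mem_insert_of_mem ha', hlt⟩
      · have hsumeq : ∀ a' : ℝ, ∑ c ∈ L, Function.update g b (a - b) c * ind c a'
            = ∑ c ∈ L, g c * ind c a' := by
          intro a'
          apply Finset.sum_congr rfl
          intro c hc
          have : c ≠ b := fun h => hbL (h ▸ hc)
          rw [Function.update_of_ne this]
        intro a' ha'
        rw [Finset.sum_insert hbL, hsumeq, Function.update_self]
        rcases Finset.mem_insert.mp ha' with rfl | ha'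
        · -- the new top element
          have h1 : ind b a' = 1 := by simp [ind, hba]
          have h2 : ∑ c ∈ L, g c * ind c a' = ∑ c ∈ L, g c * ind c b := by
            apply Finset.sum_congr rfl
            intro c hc
            obtain ⟨a'', ha'', hlt⟩ := hL c hc
            have h3 : c < b := lt_of_lt_of_le hlt (s.le_max' a'' ha'')
            have h4 : c < a' := lt_trans h3 hba
            simp [ind, h3, h4]
          rw [h1, h2]
          have := hrep b hbs
          linarith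
        · have h1 : ind b a' = 0 := by
            have : ¬ b < a' := not_lt.mpr (s.le_max' a' ha')
            simp [ind, this]
          rw [h1]
          have := hrep a' ha'
          linarith
    · -- `s` is empty
      have hse : s = ∅ := Finset.not_nonempty_iff_eq_empty.mp hs
      subst hse
      refine ⟨∅, 0, a, by simp, by simp, ?_⟩
      intro a' ha'
      have : a' = a := by simpa using ha'
      simp [this]

/-- Layer cake for a function on `Fin n`. -/
lemma layer (f : Fin n → ℝ) :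
    ∃ (L : Finset ℝ) (g : ℝ → ℝ) (v : ℝ), (∀ c ∈ L, 0 ≤ g c) ∧
      ∀ m, f m = v + ∑ c ∈ L, g c * ind c (f m) := by
  obtain ⟨L, g, v, hg, -, hrep⟩ := layer_finset (Finset.univ.image f)
  exact ⟨L, g, v, hg, fun m => hrep _ (Finset.mem_image_of_mem f (Finset.mem_univ m))⟩

/-- Difference formula. -/
lemma abs_sub_layer (L : Finset ℝ) (g : ℝ → ℝ) (v : ℝ) (hg : ∀ c ∈ L, 0 ≤ g c) (a b : ℝ)
    (ha : a = v + ∑ c ∈ L, g c * ind c a) (hb : b = v + ∑ c ∈ L, g c * ind c b) :
    |a - b| = ∑ c ∈ L, g c * |ind c a - ind c b| := by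
  have hsub : a - b = ∑ c ∈ L, g c * (ind c a - ind c b) := by
    have : ∑ c ∈ L, g c * (ind c a - ind c b)
        = ∑ c ∈ L, g c * ind c a - ∑ c ∈ L, g c * ind c b := by
      rw [← Finset.sum_sub_distrib]
      apply Finset.sum_congr rfl
      intro c _
      ring
    rw [this]
    linarith
  rcases le_total a b with hab | hab
  · rw [abs_of_nonpos (by linarith), neg_sub]
    have : b - a = ∑ c ∈ L, g c * (ind c b - ind c a) := by
      have : ∑ c ∈ L, g c * (ind c b - ind c a) = - ∑ c ∈ L, g c * (ind c a - ind c b) := by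
        rw [← Finset.sum_neg_distrib]
        apply Finset.sum_congr rfl
        intro c _
        ring
      rw [this, ← hsub]
      ring
    rw [this]
    apply Finset.sum_congr rfl
    intro c _
    rw [abs_of_nonpos (by linarith [ind_mono c hab]), neg_sub]
  · rw [abs_of_nonneg (by linarith), hsub]
    apply Finset.sum_congr rfl
    intro c _
    rw [abs_of_nonneg (by linarith [ind_mono c hab])]

/-- Indicators: `|p - q| = p (1 - q) + q (1 - p)`. -/
lemma abs_ind_sub (c a b : ℝ) :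
    |ind c a - ind c b| = ind c a * (1 - ind c b) + ind c b * (1 - ind c a) := by
  rcases ind_cases c a with h1 | h1 <;> rcases ind_cases c b with h2 | h2 <;> rw [h1, h2] <;>
    norm_num

/-- The pair functional. -/
noncomputable def Dd (f : Fin n → ℝ) (μ μ' : Fin n → ℝ) : ℝ :=
  ∑ m, ∑ m', μ m * μ' m' * |f m - f m'|

/-- The self energy. -/
noncomputable def Th (f : Fin n → ℝ) (μ : Fin n → ℝ) : ℝ := Dd f μ μ / 2

/-- The interaction energy. -/
noncomputable def En (f : Fin n → ℝ) (μ μ' : Fin n → ℝ) : ℝ :=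
  Dd f μ μ' - Th f μ - Th f μ'

/-- The mass above a threshold. -/
noncomputable def up (f : Fin n → ℝ) (μ : Fin n → ℝ) (c : ℝ) : ℝ := ∑ m, μ m * ind c (f m)

lemma up_nonneg (f μ : Fin n → ℝ) (hμ : ∀ m, 0 ≤ μ m) (c : ℝ) : 0 ≤ up f μ c :=
  Finset.sum_nonneg fun m _ => mul_nonneg (hμ m) (ind_nonneg _ _)

lemma up_le_one (f μ : Fin n → ℝ) (hμ : ∀ m, 0 ≤ μ m) (h1 : ∑ m, μ m = 1) (c : ℝ) :
    up f μ c ≤ 1 := by
  calc up f μ c ≤ ∑ m, μ m * 1 :=
        Finset.sum_le_sum fun m _ => mul_le_mul_of_nonneg_left (ind_le_one _ _) (hμ m)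
    _ = 1 := by simpa using h1

lemma sum_prod_aux (μ μ' p : Fin n → ℝ) :
    ∑ m, ∑ m', μ m * μ' m' * (p m * (1 - p m') + p m' * (1 - p m))
      = (∑ m, μ m * p m) * (∑ m', μ' m' * (1 - p m'))
        + (∑ m', μ' m' * p m') * (∑ m, μ m * (1 - p m)) := by
  rw [Finset.sum_mul_sum, Finset.sum_mul_sum, Finset.sum_comm (s := Finset.univ) (t := Finset.univ)
    (f := fun m' m => μ' m' * p m' * (μ m * (1 - p m))), ← Finset.sum_add_distrib]
  apply Finset.sum_congr rfl
  intro m _
  rw [← Finset.sum_add_distrib]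
  apply Finset.sum_congr rfl
  intro m' _
  ring

lemma sum_one_sub (μ p : Fin n → ℝ) (h1 : ∑ m, μ m = 1) :
    ∑ m, μ m * (1 - p m) = 1 - ∑ m, μ m * p m := by
  have : ∑ m, μ m * (1 - p m) = ∑ m, μ m - ∑ m, μ m * p m := by
    rw [← Finset.sum_sub_distrib]
    apply Finset.sum_congr rfl
    intro m _
    ring
  rw [this, h1]

/-- The pair functional in terms of the layers. -/
lemma Dd_layer (f : Fin n → ℝ) (L : Finset ℝ) (g : ℝ → ℝ) (v : ℝ) (hg : ∀ c ∈ L, 0 ≤ g c)
    (hrep : ∀ m, f m = v + ∑ c ∈ L, g c * ind c (f m)) (μ μ' : Fin n → ℝ)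
    (h1 : ∑ m, μ m = 1) (h1' : ∑ m, μ' m = 1) :
    Dd f μ μ' = ∑ c ∈ L, g c * (up f μ c * (1 - up f μ' c) + up f μ' c * (1 - up f μ c)) := by
  unfold Dd
  have h : ∀ m m', μ m * μ' m' * |f m - f m'|
      = ∑ c ∈ L, g c * (μ m * μ' m' * (ind c (f m) * (1 - ind c (f m'))
          + ind c (f m') * (1 - ind c (f m)))) := by
    intro m m'
    rw [abs_sub_layer L g v hg _ _ (hrep m) (hrep m'), Finset.mul_sum]
    apply Finset.sum_congr rfl
    intro c _
    rw [abs_ind_sub]
    ring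
  simp_rw [h]
  rw [Finset.sum_congr rfl (fun m _ => Finset.sum_comm), Finset.sum_comm]
  apply Finset.sum_congr rfl
  intro c _
  simp_rw [← Finset.mul_sum]
  congr 1
  rw [sum_prod_aux μ μ' (fun m => ind c (f m)), sum_one_sub μ' _ h1', sum_one_sub μ _ h1]
  rfl

/-- The self energy in terms of the layers. -/
lemma Th_layer (f : Fin n → ℝ) (L : Finset ℝ) (g : ℝ → ℝ) (v : ℝ) (hg : ∀ c ∈ L, 0 ≤ g c)
    (hrep : ∀ m, f m = v + ∑ c ∈ L, g c * ind c (f m)) (μ : Fin n → ℝ)
    (h1 : ∑ m, μ m = 1) :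
    Th f μ = ∑ c ∈ L, g c * (up f μ c * (1 - up f μ c)) := by
  unfold Th
  rw [Dd_layer f L g v hg hrep μ μ h1 h1, Finset.sum_div]
  apply Finset.sum_congr rfl
  intro c _
  ring

/-- The interaction energy in terms of the layers. -/
lemma En_layer (f : Fin n → ℝ) (L : Finset ℝ) (g : ℝ → ℝ) (v : ℝ) (hg : ∀ c ∈ L, 0 ≤ g c)
    (hrep : ∀ m, f m = v + ∑ c ∈ L, g c * ind c (f m)) (μ μ' : Fin n → ℝ)
    (h1 : ∑ m, μ m = 1) (h1' : ∑ m, μ' m = 1) :
    En f μ μ' = ∑ c ∈ L, g c * (up f μ c - up f μ' c) ^ 2 := by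
  unfold En
  rw [Dd_layer f L g v hg hrep μ μ' h1 h1', Th_layer f L g v hg hrep μ h1,
    Th_layer f L g v hg hrep μ' h1', ← Finset.sum_sub_distrib, ← Finset.sum_sub_distrib]
  apply Finset.sum_congr rfl
  intro c _
  ring

/-- The polynomial `ψ(u) = 3u² - 2u³`. -/
noncomputable def psi (u : ℝ) : ℝ := 3 * u ^ 2 - 2 * u ^ 3

lemma psi_le (u : ℝ) (h0 : 0 ≤ u) : psi u ≤ 9 / 8 * u := by
  unfold psi
  nlinarith [mul_nonneg h0 (sq_nonneg (u - 3 / 4))]

lemma one_sub_psi_le (u : ℝ) (h1 : u ≤ 1) : 1 - psi u ≤ 9 / 8 * (1 - u) := by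
  have h : 0 ≤ 1 - u := by linarith
  have e : 1 - psi u = psi (1 - u) := by unfold psi; ring
  rw [e]
  exact psi_le _ h

lemma psi_nonneg (u : ℝ) (h1 : u ≤ 1) (h0 : 0 ≤ u) : 0 ≤ psi u := by
  unfold psi
  nlinarith [mul_nonneg (mul_nonneg h0 h0) (by linarith : (0:ℝ) ≤ 3 - 2 * u)]

lemma psi_le_one (u : ℝ) (h1 : u ≤ 1) (h0 : 0 ≤ u) : psi u ≤ 1 := by
  have := psi_nonneg (1 - u) (by linarith) (by linarith)
  have e : 1 - psi u = psi (1 - u) := by unfold psi; ring
  linarith

/-- Each threshold indicator is `9/8`-well approximated. -/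
lemma abs_ind_psi (p u : ℝ) (hp : p = 0 ∨ p = 1) (h0 : 0 ≤ u) (h1 : u ≤ 1) :
    |p - psi u| ≤ 9 / 8 * |p - u| := by
  rcases hp with rfl | rfl
  · rw [zero_sub, zero_sub, abs_neg, abs_neg, abs_of_nonneg (psi_nonneg u h1 h0), abs_of_nonneg h0]
    exact psi_le u h0
  · rw [abs_of_nonneg (by linarith [psi_le_one u h1 h0]), abs_of_nonneg (by linarith)]
    exact one_sub_psi_le u h1

/-- The key two-point inequality for `ψ`. -/
lemma abs_psi_sub (u u' lam : ℝ) (h0 : 0 ≤ u) (h1 : u ≤ 1) (h0' : 0 ≤ u') (h1' : u' ≤ 1)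
    (hlam : 0 < lam) :
    |psi u - psi u'| ≤ (3 / 2 * lam + 1) * (u - u') ^ 2
      + 3 / (4 * lam) * (u * (1 - u) + u' * (1 - u')) := by
  set Δ := |u - u'| with hΔ
  set B := u * (1 - u) + u' * (1 - u') with hB
  have hΔ0 : 0 ≤ Δ := abs_nonneg _
  have hΔ1 : Δ ≤ 1 := by
    rw [hΔ, abs_le]; constructor <;> linarith
  have hB0 : 0 ≤ B := by
    rw [hB]
    have := mul_nonneg h0 (by linarith : 0 ≤ 1 - u)
    have := mul_nonneg h0' (by linarith : 0 ≤ 1 - u')
    linarith
  have hB1 : B ≤ 1 / 2 := by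
    rw [hB]
    nlinarith [sq_nonneg (u - 1 / 2), sq_nonneg (u' - 1 / 2)]
  have hsq : (u - u') ^ 2 = Δ ^ 2 := by rw [hΔ, sq_abs]
  have hfac : psi u - psi u' = (u - u') * (3 * B + (u - u') ^ 2) := by
    unfold psi; rw [hB]; ring
  rw [hfac, abs_mul, abs_of_nonneg (by rw [hsq]; positivity : 0 ≤ 3 * B + (u - u') ^ 2), hsq, ← hΔ]
  -- `Δ (3 B + Δ²) ≤ (3/2 lam + 1) Δ² + 3/(4 lam) B`
  have h3 : Δ ^ 3 ≤ Δ ^ 2 := by
    have : Δ ^ 3 = Δ ^ 2 * Δ := by ring
    rw [this]
    exact mul_le_of_le_one_right (by positivity) hΔ1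
  have hB2 : B ^ 2 ≤ B * (1 / 2) := by
    rw [sq]; exact mul_le_mul_of_nonneg_left hB1 hB0
  have hkey : 3 * (Δ * B) ≤ 3 / 2 * lam * Δ ^ 2 + 3 / (4 * lam) * B := by
    have hl : 0 < 2 * lam := by positivity
    have e : 3 / (4 * lam) * B = 3 / 2 * (B * (1 / 2)) / lam := by
      field_simp
      ring
    have h4 : 3 / 2 * (B ^ 2) / lam ≤ 3 / (4 * lam) * B := by
      rw [e]
      apply div_le_div_of_nonneg_right _ hlam.le
      linarith
    have h5 : 3 * (Δ * B) ≤ 3 / 2 * lam * Δ ^ 2 + 3 / 2 * (B ^ 2) / lam := by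
      have e2 : 3 / 2 * lam * Δ ^ 2 + 3 / 2 * (B ^ 2) / lam - 3 * (Δ * B)
          = 3 / 2 * (lam * Δ - B) ^ 2 / lam := by
        field_simp
        ring
      have : 0 ≤ 3 / 2 * (lam * Δ - B) ^ 2 / lam := by positivity
      linarith
    linarith
  calc Δ * (3 * B + Δ ^ 2) = 3 * (Δ * B) + Δ ^ 3 := by ring
    _ ≤ (3 / 2 * lam * Δ ^ 2 + 3 / (4 * lam) * B) + Δ ^ 2 := add_le_add hkey h3
    _ = _ := by ring

/-- The scalar interface: every real function `f` has a map `T` on probability vectors. -/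
theorem exists_T (f : Fin n → ℝ) : ∃ T : (Fin n → ℝ) → ℝ,
    (∀ μ : Fin n → ℝ, (∀ m, 0 ≤ μ m) → ∑ m, μ m = 1 → ∀ i,
      |f i - T μ| ≤ 9 / 8 * ∑ m, μ m * |f i - f m|) ∧
    (∀ μ μ' : Fin n → ℝ, (∀ m, 0 ≤ μ m) → ∑ m, μ m = 1 → (∀ m, 0 ≤ μ' m) → ∑ m, μ' m = 1 →
      0 ≤ En f μ μ' ∧ ∀ lam : ℝ, 0 < lam →
      |T μ - T μ'| ≤ (3 / 2 * lam + 1) * En f μ μ' + 3 / (4 * lam) * (Th f μ + Th f μ')) := by
  obtain ⟨L, g, v, hg, hrep⟩ := layer f
  refine ⟨fun μ => v + ∑ c ∈ L, g c * psi (up f μ c), ?_, ?_⟩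
  · intro μ hμ h1 i
    have e : f i - (v + ∑ c ∈ L, g c * psi (up f μ c))
        = ∑ c ∈ L, g c * (ind c (f i) - psi (up f μ c)) := by
      have : ∑ c ∈ L, g c * (ind c (f i) - psi (up f μ c))
          = ∑ c ∈ L, g c * ind c (f i) - ∑ c ∈ L, g c * psi (up f μ c) := by
        rw [← Finset.sum_sub_distrib]
        apply Finset.sum_congr rfl
        intro c _
        ring
      rw [this]
      have := hrep i
      linarith
    have e2 : ∑ m, μ m * |f i - f m| = ∑ c ∈ L, g c * ∑ m, μ m * |ind c (f i) - ind c (f m)| := by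
      simp_rw [Finset.mul_sum]
      rw [Finset.sum_comm]
      apply Finset.sum_congr rfl
      intro m _
      rw [abs_sub_layer L g v hg _ _ (hrep i) (hrep m), Finset.mul_sum]
      apply Finset.sum_congr rfl
      intro c _
      ring
    rw [e, e2, Finset.mul_sum]
    refine (Finset.abs_sum_le_sum_abs _ _).trans (Finset.sum_le_sum ?_)
    intro c hc
    rw [abs_mul, abs_of_nonneg (hg c hc)]
    have hu0 := up_nonneg f μ hμ c
    have hu1 := up_le_one f μ hμ h1 c
    have h2 : |ind c (f i) - up f μ c| ≤ ∑ m, μ m * |ind c (f i) - ind c (f m)| := by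
      have : ind c (f i) - up f μ c = ∑ m, μ m * (ind c (f i) - ind c (f m)) := by
        unfold up
        have : ∑ m, μ m * (ind c (f i) - ind c (f m))
            = (∑ m, μ m) * ind c (f i) - ∑ m, μ m * ind c (f m) := by
          rw [Finset.sum_mul, ← Finset.sum_sub_distrib]
          apply Finset.sum_congr rfl
          intro m _
          ring
        rw [this, h1, one_mul]
      rw [this]
      refine (Finset.abs_sum_le_sum_abs _ _).trans (le_of_eq ?_)
      apply Finset.sum_congr rfl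
      intro m _
      rw [abs_mul, abs_of_nonneg (hμ m)]
    have h3 := abs_ind_psi (ind c (f i)) (up f μ c) (ind_cases _ _) hu0 hu1
    calc g c * |ind c (f i) - psi (up f μ c)|
        ≤ g c * (9 / 8 * |ind c (f i) - up f μ c|) := mul_le_mul_of_nonneg_left h3 (hg c hc)
      _ ≤ g c * (9 / 8 * ∑ m, μ m * |ind c (f i) - ind c (f m)|) := by
          apply mul_le_mul_of_nonneg_left _ (hg c hc)
          linarith
      _ = _ := by ring
  · intro μ μ' hμ h1 hμ' h1'
    refine ⟨?_, ?_⟩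
    · rw [En_layer f L g v hg hrep μ μ' h1 h1']
      exact Finset.sum_nonneg fun c hc => mul_nonneg (hg c hc) (sq_nonneg _)
    · intro lam hlam
      rw [En_layer f L g v hg hrep μ μ' h1 h1', Th_layer f L g v hg hrep μ h1,
        Th_layer f L g v hg hrep μ' h1']
      have e : (v + ∑ c ∈ L, g c * psi (up f μ c)) - (v + ∑ c ∈ L, g c * psi (up f μ' c))
          = ∑ c ∈ L, g c * (psi (up f μ c) - psi (up f μ' c)) := by
        have : ∑ c ∈ L, g c * (psi (up f μ c) - psi (up f μ' c))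
            = ∑ c ∈ L, g c * psi (up f μ c) - ∑ c ∈ L, g c * psi (up f μ' c) := by
          rw [← Finset.sum_sub_distrib]
          apply Finset.sum_congr rfl
          intro c _
          ring
        rw [this]
        ring
      have e2 : (3 / 2 * lam + 1) * ∑ c ∈ L, g c * (up f μ c - up f μ' c) ^ 2
          + 3 / (4 * lam) * (∑ c ∈ L, g c * (up f μ c * (1 - up f μ c))
            + ∑ c ∈ L, g c * (up f μ' c * (1 - up f μ' c)))
          = ∑ c ∈ L, g c * ((3 / 2 * lam + 1) * (up f μ c - up f μ' c) ^ 2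
            + 3 / (4 * lam) * (up f μ c * (1 - up f μ c) + up f μ' c * (1 - up f μ' c))) := by
        rw [← Finset.sum_add_distrib, Finset.mul_sum, Finset.mul_sum, ← Finset.sum_add_distrib]
        apply Finset.sum_congr rfl
        intro c _
        ring
      show |(v + ∑ c ∈ L, g c * psi (up f μ c)) - (v + ∑ c ∈ L, g c * psi (up f μ' c))| ≤ _
      rw [e, e2]
      refine (Finset.abs_sum_le_sum_abs _ _).trans (Finset.sum_le_sum ?_)
      intro c hc
      rw [abs_mul, abs_of_nonneg (hg c hc)]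
      apply mul_le_mul_of_nonneg_left _ (hg c hc)
      exact abs_psi_sub _ _ lam (up_nonneg f μ hμ c) (up_le_one f μ hμ h1 c)
        (up_nonneg f μ' hμ' c) (up_le_one f μ' hμ' h1' c) hlam

end Crest.Agent.Lib.Cotype
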