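import Mathlib
import Crest.Agent.Lib.Cotype.Scalar
import Crest.Agent.Lib.Cotype.Chain

/-!
# Assembly in `ℓ₁`
-/

set_option autoImplicit false

namespace Crest.Agent.Lib.Cotype

open Finset

variable {n : ℕ}

/-- The real sequence space `ℓ₁`. -/
abbrev L1 := lp (fun _ : ℕ => ℝ) 1

lemma hasSum_abs (a b : L1) : HasSum (fun k => |a k - b k|) (dist a b) := by
  have hp : 0 < (1 : ENNReal).toReal := by simp
  have h1 := lp.norm_eq_tsum_rpow hp (a - b)
  have h2 := (lp.memℓp (a - b)).summable hp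
  simp only [ENNReal.toReal_one, Real.rpow_one, div_one, lp.coeFn_sub, Pi.sub_apply,
    Real.norm_eq_abs] at h1 h2
  rw [dist_eq_norm, h1]
  exact h2.hasSum

/-- The optimisation over the free parameter. -/
lemma optimise (N a b : ℝ) (hN : 0 ≤ N) (ha : 0 ≤ a) (hb : 0 ≤ b)
    (h : ∀ lam : ℝ, 0 < lam → N ≤ (3 / 2 * lam + 1) * a + 3 / (4 * lam) * b) :
    N ^ 2 ≤ 9 * (b * a) + 2 * a ^ 2 := by
  by_cases hNa : N ≤ a
  · have : N ^ 2 ≤ a ^ 2 := pow_le_pow_left₀ hN hNa 2
    have : 0 ≤ b * a := mul_nonneg hb ha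
    nlinarith [sq_nonneg a]
  · have hM : 0 < N - a := by linarith [not_le.mp hNa]
    set M := N - a with hMdef
    rcases ha.eq_or_lt with ha0 | hapos
    · -- `a = 0`: a contradiction
      exfalso
      have h1 := h ((b + 1) / M) (by positivity)
      rw [← ha0] at h1
      have hM' : M = N := by rw [hMdef, ← ha0]; ring
      have e : 3 / (4 * ((b + 1) / M)) * b = 3 / 4 * (M * (b / (b + 1))) := by
        have : b + 1 ≠ 0 := by positivity
        field_simp
      rw [e, mul_zero, zero_add] at h1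
      have h2 : b / (b + 1) ≤ 1 := by
        rw [div_le_one (by positivity)]
        linarith
      have h3 : M * (b / (b + 1)) ≤ M * 1 := mul_le_mul_of_nonneg_left h2 hM.le
      rw [hM'] at h3
      nlinarith
    · have h1 := h (M / (3 * a)) (by positivity)
      have e1 : (3 / 2 * (M / (3 * a)) + 1) * a = M / 2 + a := by
        field_simp
      have e2 : 3 / (4 * (M / (3 * a))) * b = 9 * (a * b) / (4 * M) := by
        field_simp
        ring
      rw [e1, e2] at h1
      have h2 : M / 2 ≤ 9 * (a * b) / (4 * M) := by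
        have : N = M + a := by rw [hMdef]; ring
        linarith
      have h3 : M ^ 2 ≤ 9 / 2 * (a * b) := by
        rw [le_div_iff₀ (by positivity)] at h2
        nlinarith
      have e3 : N = M + a := by rw [hMdef]; ring
      rw [e3]
      nlinarith [sq_nonneg (M - a)]

section Main

variable {w : Fin n → ℝ} {A : Matrix (Fin n) (Fin n) ℝ}

/-- Sums of the pair functional across the coordinates. -/
lemma hasSum_Dd (x : Fin n → L1) (μ μ' : Fin n → ℝ) :
    HasSum (fun k => Dd (fun m => x m k) μ μ') (∑ m, ∑ m', μ m * μ' m' * dist (x m) (x m')) := by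
  unfold Dd
  apply hasSum_sum
  intro m _
  apply hasSum_sum
  intro m' _
  exact (hasSum_abs (x m) (x m')).mul_left _

/-- Main existence theorem in coordinates. -/
theorem exists_smooth (x : Fin n → L1) (B : Matrix (Fin n) (Fin n) ℝ) (hB : PS B) :
    ∃ y : Fin n → L1,
      (∀ i, dist (x i) (y i) ≤ 9 / 8 * ∑ m, B i m * dist (x i) (x m)) ∧
      ∀ i j, dist (y i) (y j) ^ 2 ≤
        9 * ((TT (fun a b => dist (x a) (x b)) B i + TT (fun a b => dist (x a) (x b)) B j)
            * EE (fun a b => dist (x a) (x b)) B i j)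
          + 2 * EE (fun a b => dist (x a) (x b)) B i j ^ 2 := by
  set d : Fin n → Fin n → ℝ := fun a b => dist (x a) (x b) with hd
  choose T hT1 hT2 using fun k : ℕ => exists_T (fun m => x m k)
  -- summability of the defect
  have hdefect : ∀ i, HasSum (fun k => 9 / 8 * ∑ m, B i m * |x i k - x m k|)
      (9 / 8 * ∑ m, B i m * dist (x i) (x m)) := by
    intro i
    apply HasSum.mul_left
    apply hasSum_sum
    intro m _
    exact (hasSum_abs (x i) (x m)).mul_left _
  have hbound : ∀ i k, |x i k - T k (B i)| ≤ 9 / 8 * ∑ m, B i m * |x i k - x m k| :=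
    fun i k => hT1 k (B i) (hB.nonneg i) (hB.stoch i) i
  have hmem : ∀ i, Memℓp (fun k => T k (B i)) 1 := by
    intro i
    apply memℓp_gen
    simp only [ENNReal.toReal_one, Real.rpow_one, Real.norm_eq_abs]
    have h1 : Summable fun k => |x i k| + 9 / 8 * ∑ m, B i m * |x i k - x m k| := by
      refine Summable.add ?_ (hdefect i).summable
      have h2 := (lp.memℓp (x i)).summable (by simp : 0 < (1 : ENNReal).toReal)
      simpa using h2
    refine Summable.of_nonneg_of_le (fun k => abs_nonneg _) (fun k => ?_) h1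
    have h3 := hbound i k
    have h4 : |T k (B i)| ≤ |x i k| + |x i k - T k (B i)| := by
      have := abs_sub_abs_le_abs_sub (T k (B i)) (x i k)
      rw [abs_sub_comm (T k (B i))] at this
      linarith
    linarith
  let y : Fin n → L1 := fun i => ⟨fun k => T k (B i), hmem i⟩
  have hy : ∀ i k, y i k = T k (B i) := fun i k => rfl
  refine ⟨y, ?_, ?_⟩
  · intro i
    refine hasSum_le (fun k => ?_) (hasSum_abs (x i) (y i)) (hdefect i)
    rw [hy]
    exact hbound i k
  · intro i j
    -- the sums of the energies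
    have hDD : ∀ i j, HasSum (fun k => Dd (fun m => x m k) (B i) (B j)) (DD d B i j) :=
      fun i j => hasSum_Dd x (B i) (B j)
    have hTh : ∀ i, HasSum (fun k => Th (fun m => x m k) (B i)) (TT d B i) :=
      fun i => (hDD i i).div_const 2
    have hEn : ∀ i j, HasSum (fun k => En (fun m => x m k) (B i) (B j)) (EE d B i j) :=
      fun i j => ((hDD i j).sub (hTh i)).sub (hTh j)
    have hEE0 : 0 ≤ EE d B i j :=
      (hEn i j).nonneg fun k =>
        (hT2 k (B i) (B j) (hB.nonneg i) (hB.stoch i) (hB.nonneg j) (hB.stoch j)).1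
    have hTT : 0 ≤ TT d B i + TT d B j :=
      add_nonneg (TT_nonneg (fun _ _ => dist_nonneg) hB i) (TT_nonneg (fun _ _ => dist_nonneg) hB j)
    apply optimise _ _ _ dist_nonneg hEE0 hTT
    intro lam hlam
    have h2 : HasSum (fun k => (3 / 2 * lam + 1) * En (fun m => x m k) (B i) (B j)
        + 3 / (4 * lam) * (Th (fun m => x m k) (B i) + Th (fun m => x m k) (B j)))
        ((3 / 2 * lam + 1) * EE d B i j + 3 / (4 * lam) * (TT d B i + TT d B j)) :=
      ((hEn i j).mul_left _).add (((hTh i).add (hTh j)).mul_left _)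
    refine hasSum_le (fun k => ?_) (hasSum_abs (y i) (y j)) h2
    rw [hy, hy]
    exact (hT2 k (B i) (B j) (hB.nonneg i) (hB.stoch i) (hB.nonneg j) (hB.stoch j)).2 lam hlam

/-- The theorem for `ℓ₁`, with the explicit constant. -/
theorem cotype_main (t : ℕ) (ht : 1 ≤ t) (hw : ∀ i, 0 ≤ w i) (hA : ∀ i j, 0 ≤ A i j)
    (hA1 : ∀ i, ∑ j, A i j = 1) (hrev : ∀ i j, w i * A i j = w j * A j i) (x : Fin n → L1) :
    ∃ y : Fin n → L1,
      ∑ i, w i * dist (x i) (y i) ^ 2 + t * ∑ i, ∑ j, w i * A i j * dist (y i) (y j) ^ 2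
        ≤ 3024 * ∑ i, ∑ j, w i * Bav A t i j * dist (x i) (x j) ^ 2 := by
  set d : Fin n → Fin n → ℝ := fun a b => dist (x a) (x b) with hd
  have hB : PS (Bav A t) := Bav_PS hA hA1 ht
  obtain ⟨y, hy1, hy2⟩ := exists_smooth x (Bav A t) hB
  refine ⟨y, ?_⟩
  have hd0 : ∀ a b, 0 ≤ d a b := fun _ _ => dist_nonneg
  have hds : ∀ a b, d a b = d b a := fun _ _ => dist_comm _ _
  have hdt : ∀ a b c, d a c ≤ d a b + d b c := fun _ _ _ => dist_triangle _ _ _
  have hdd : ∀ a, d a a = 0 := fun _ => dist_self _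
  have hcore := chain_core (d := d) hw hd0 hds hdt hdd hA hA1 hrev ht
  change _ ≤ 3024 * mom w d (Bav A t)
  have hF0 : 0 ≤ mom w d (Bav A t) := mom_nonneg hw hB
  have h1 : ∑ i, w i * dist (x i) (y i) ^ 2 ≤ 81 / 64 * mom w d (Bav A t) := by
    unfold mom
    rw [Finset.mul_sum]
    apply Finset.sum_le_sum
    intro i _
    have h2 := jensen (Bav A t i) (fun m => d i m) (hB.nonneg i) (hB.stoch i)
    have h3 : dist (x i) (y i) ^ 2 ≤ 81 / 64 * ∑ m, Bav A t i m * d i m ^ 2 := by
      have h4 := hy1 i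
      have h5 : 0 ≤ ∑ m, Bav A t i m * d i m :=
        Finset.sum_nonneg fun m _ => mul_nonneg (hB.nonneg i m) (hd0 i m)
      have h6 : dist (x i) (y i) ^ 2 ≤ (9 / 8 * ∑ m, Bav A t i m * d i m) ^ 2 :=
        pow_le_pow_left₀ dist_nonneg h4 2
      nlinarith
    have h4 := mul_le_mul_of_nonneg_left h3 (hw i)
    refine h4.trans (le_of_eq ?_)
    rw [Finset.mul_sum, Finset.mul_sum, Finset.mul_sum]
    apply Finset.sum_congr rfl
    intro m _
    ring
  have ht0 : (0 : ℝ) < t := by exact_mod_cast ht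
  have h2 : (t : ℝ) * ∑ i, ∑ j, w i * A i j * dist (y i) (y j) ^ 2
      ≤ 363 * mom w d (Bav A t) := by
    refine le_trans ?_ hcore
    apply mul_le_mul_of_nonneg_left _ ht0.le
    apply Finset.sum_le_sum
    intro i _
    apply Finset.sum_le_sum
    intro j _
    exact mul_le_mul_of_nonneg_left (hy2 i j) (mul_nonneg (hw i) (hA i j))
  linarith

end Main

end Crest.Agent.Lib.Cotype
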